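import Vale.Agent.Lib.P194.Retract

/-!
# P194 helper: subgroups whose group algebra is directly finite, and small supports
-/

namespace Vale.Agent.Lib.P194

universe u v

variable {K : Type u} [Field K] {G : Type v} [Group G]

/-- Group algebras of abelian subgroups are commutative, hence directly finite. -/
theorem dedekind_of_comm (H : Subgroup G) (hcomm : ∀ x ∈ H, ∀ y ∈ H, x * y = y * x)
    (x y : MonoidAlgebra K H) (hxy : x * y = 1) : y * x = 1 := by
  have key : ∀ x : MonoidAlgebra K H, Commute x y := by
    intro x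
    induction x using MonoidAlgebra.induction_linear with
    | zero => exact Commute.zero_left y
    | add f g hf hg => exact hf.add_left hg
    | single m r =>
      exact MonoidAlgebra.single_commute (fun m' => Subtype.ext (hcomm m m.2 m' m'.2))
        (fun r' => mul_comm r r') y
  rw [← (key x).eq]
  exact hxy

/-- Group algebras of finite subgroups are finite-dimensional, hence directly finite. -/
theorem dedekind_of_finite (H : Subgroup G) (hfin : Finite H)
    (x y : MonoidAlgebra K H) (hxy : x * y = 1) : y * x = 1 := by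
  have h1 : Module.Finite K (MonoidAlgebra K H) := inferInstance
  have h2 : IsArtinianRing (MonoidAlgebra K H) := IsArtinianRing.of_finite K _
  exact mul_eq_one_symm hxy

/-- Group algebras of unique-product subgroups have no zero divisors, hence are directly
finite. -/
theorem dedekind_of_uniqueProds (H : Subgroup G) (hup : UniqueProds H)
    (x y : MonoidAlgebra K H) (hxy : x * y = 1) : y * x = 1 :=
  mul_eq_one_symm hxy

theorem zpowers_comm (t : G) : ∀ x ∈ Subgroup.zpowers t, ∀ y ∈ Subgroup.zpowers t,
    x * y = y * x := by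
  intro x hx y hy
  obtain ⟨m, rfl⟩ := Subgroup.mem_zpowers_iff.mp hx
  obtain ⟨n, rfl⟩ := Subgroup.mem_zpowers_iff.mp hy
  exact (Commute.zpow_zpow_self t m n).eq

theorem subset_pair_of_card_le_two [Inhabited G] (s : Finset G) (hs : s.card ≤ 2) :
    ∃ p q : G, ∀ x ∈ s, x = p ∨ x = q := by
  classical
  rcases Nat.lt_or_ge s.card 2 with h | h
  · rcases Nat.lt_or_ge s.card 1 with h0 | h1
    · have : s = ∅ := Finset.card_eq_zero.mp (by omega)
      exact ⟨default, default, by simp [this]⟩
    · obtain ⟨p, hp⟩ := Finset.card_eq_one.mp (by omega : s.card = 1)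
      exact ⟨p, p, by simp [hp]⟩
  · obtain ⟨p, q, _, hpq⟩ := Finset.card_eq_two.mp (by omega : s.card = 2)
    exact ⟨p, q, by simp [hpq]⟩

/-- A set of at most two elements lies in a left coset of a cyclic subgroup. -/
theorem left_coset_of_card_le_two (s : Finset G) (hs : s.card ≤ 2) :
    ∃ H : Subgroup G, (∀ x ∈ H, ∀ y ∈ H, x * y = y * x) ∧ ∃ g : G, ∀ x ∈ s, g⁻¹ * x ∈ H := by
  haveI : Inhabited G := ⟨1⟩
  obtain ⟨p, q, hpq⟩ := subset_pair_of_card_le_two s hs
  refine ⟨Subgroup.zpowers (p⁻¹ * q), zpowers_comm _, p, ?_⟩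
  intro x hx
  rcases hpq x hx with rfl | rfl
  · rw [inv_mul_cancel]; exact Subgroup.one_mem _
  · exact Subgroup.mem_zpowers _

/-- A set of at most two elements lies in a right coset of a cyclic subgroup. -/
theorem right_coset_of_card_le_two (s : Finset G) (hs : s.card ≤ 2) :
    ∃ H : Subgroup G, (∀ x ∈ H, ∀ y ∈ H, x * y = y * x) ∧ ∃ g : G, ∀ x ∈ s, x * g⁻¹ ∈ H := by
  haveI : Inhabited G := ⟨1⟩
  obtain ⟨p, q, hpq⟩ := subset_pair_of_card_le_two s hs
  refine ⟨Subgroup.zpowers (q * p⁻¹), zpowers_comm _, p, ?_⟩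
  intro x hx
  rcases hpq x hx with rfl | rfl
  · rw [mul_inv_cancel]; exact Subgroup.one_mem _
  · exact Subgroup.mem_zpowers _

end Vale.Agent.Lib.P194
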