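import Mathlib

/-!
# P194 helper: restriction of a group algebra element to a subgroup

`restr H y` keeps the coefficients of `y` on the subgroup `H`.  It is a bimodule map over the
elements supported in `H`, which lets one-sided inverses be pulled back into `K[H]`.
-/

namespace Vale.Agent.Lib.P194

open MonoidAlgebra

universe u v

variable {K : Type u} [Field K] {G : Type v} [Group G]

attribute [local instance] Classical.propDecidable

/-- The part of `y` supported on the subgroup `H`. -/
noncomputable def restr (H : Subgroup G) (y : MonoidAlgebra K G) : MonoidAlgebra K G :=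
  MonoidAlgebra.ofCoeff (Finsupp.filter (fun x => x ∈ H) y.coeff)

theorem coeff_restr (H : Subgroup G) (y : MonoidAlgebra K G) (x : G) :
    (restr H y).coeff x = if x ∈ H then y.coeff x else 0 := by
  simp [restr, Finsupp.filter_apply]

theorem restr_supp (H : Subgroup G) (y : MonoidAlgebra K G) :
    ∀ x ∈ (restr H y).coeff.support, x ∈ H := by
  intro x hx
  rw [Finsupp.mem_support_iff, coeff_restr] at hx
  by_contra h
  simp [h] at hx

theorem restr_of_supp (H : Subgroup G) (y : MonoidAlgebra K G)
    (hy : ∀ x ∈ y.coeff.support, x ∈ H) : restr H y = y := by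
  apply MonoidAlgebra.coeff_injective
  ext x
  rw [coeff_restr]
  split_ifs with h
  · rfl
  · by_contra h2
    exact h (hy x (Finsupp.mem_support_iff.mpr (Ne.symm h2)))

theorem restr_one (H : Subgroup G) : restr H (1 : MonoidAlgebra K G) = 1 := by
  apply restr_of_supp
  intro x hx
  rw [Finsupp.mem_support_iff, MonoidAlgebra.one_def, MonoidAlgebra.coeff_single] at hx
  have : x = 1 := by
    by_contra h
    exact hx (Finsupp.single_eq_of_ne h)
  rw [this]
  exact H.one_mem

theorem restr_mul_left (H : Subgroup G) (c y : MonoidAlgebra K G)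
    (hc : ∀ x ∈ c.coeff.support, x ∈ H) : restr H (c * y) = c * restr H y := by
  apply MonoidAlgebra.coeff_injective
  ext x
  rw [coeff_restr, MonoidAlgebra.coeff_mul_apply_left, MonoidAlgebra.coeff_mul_apply_left]
  unfold Finsupp.sum
  split_ifs with h
  · refine Finset.sum_congr rfl fun g hg => ?_
    beta_reduce
    rw [coeff_restr, if_pos (H.mul_mem (H.inv_mem (hc g hg)) h)]
  · symm
    refine Finset.sum_eq_zero fun g hg => ?_
    have : g⁻¹ * x ∉ H := fun h2 => h (by simpa using H.mul_mem (hc g hg) h2)
    beta_reduce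
    rw [coeff_restr, if_neg this, mul_zero]

theorem restr_mul_right (H : Subgroup G) (c y : MonoidAlgebra K G)
    (hc : ∀ x ∈ c.coeff.support, x ∈ H) : restr H (y * c) = restr H y * c := by
  apply MonoidAlgebra.coeff_injective
  ext x
  rw [coeff_restr, MonoidAlgebra.coeff_mul_apply_right, MonoidAlgebra.coeff_mul_apply_right]
  unfold Finsupp.sum
  split_ifs with h
  · refine Finset.sum_congr rfl fun g hg => ?_
    beta_reduce
    rw [coeff_restr, if_pos (H.mul_mem h (H.inv_mem (hc g hg)))]
  · symm
    refine Finset.sum_eq_zero fun g hg => ?_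
    have : x * g⁻¹ ∉ H := fun h2 => h (by simpa using H.mul_mem h2 (hc g hg))
    beta_reduce
    rw [coeff_restr, if_neg this, zero_mul]

/-- Direct finiteness of `K[H]` transfers to the elements of `K[G]` supported in `H`. -/
theorem dedekind_of_supp (H : Subgroup G)
    (hH : ∀ x y : MonoidAlgebra K H, x * y = 1 → y * x = 1)
    (x y : MonoidAlgebra K G) (hx : ∀ g ∈ x.coeff.support, g ∈ H)
    (hy : ∀ g ∈ y.coeff.support, g ∈ H) (hxy : x * y = 1) : y * x = 1 := by
  have hinj : Function.Injective (H.subtype : H → G) := H.subtype_injective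
  have hrange : ∀ z : MonoidAlgebra K G, (∀ g ∈ z.coeff.support, g ∈ H) →
      (↑z.coeff.support : Set G) ⊆ Set.range (H.subtype : H → G) := by
    intro z hz g hg
    exact ⟨⟨g, hz g hg⟩, rfl⟩
  set x' := MonoidAlgebra.comapDomain (H.subtype : H → G) hinj x with hx'
  set y' := MonoidAlgebra.comapDomain (H.subtype : H → G) hinj y with hy'
  have ex : MonoidAlgebra.mapDomain (H.subtype : H → G) x' = x :=
    MonoidAlgebra.mapDomain_comapDomain (hrange x hx) hinj
  have ey : MonoidAlgebra.mapDomain (H.subtype : H → G) y' = y :=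
    MonoidAlgebra.mapDomain_comapDomain (hrange y hy) hinj
  have h1 : x' * y' = 1 := by
    apply MonoidAlgebra.mapDomain_injective hinj
    rw [MonoidAlgebra.mapDomain_mul H.subtype, ex, ey, hxy]
    exact (MonoidAlgebra.mapDomain_one H.subtype).symm
  have h2 := hH x' y' h1
  have h3 := congrArg (MonoidAlgebra.mapDomain (H.subtype : H → G)) h2
  rw [MonoidAlgebra.mapDomain_mul H.subtype, ex, ey] at h3
  rw [h3]
  exact MonoidAlgebra.mapDomain_one H.subtype

/-- A right-invertible element supported in `H` is invertible. -/
theorem left_inv_of_supp (H : Subgroup G)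
    (hH : ∀ x y : MonoidAlgebra K H, x * y = 1 → y * x = 1)
    (c b : MonoidAlgebra K G) (hc : ∀ g ∈ c.coeff.support, g ∈ H) (hcb : c * b = 1) :
    b * c = 1 := by
  have h1 : c * restr H b = 1 := by
    rw [← restr_mul_left H c b hc, hcb, restr_one]
  have h2 : restr H b * c = 1 := dedekind_of_supp H hH c (restr H b) hc (restr_supp H b) h1
  have h3 : b = restr H b := by
    calc b = 1 * b := (one_mul b).symm
      _ = (restr H b * c) * b := by rw [h2]
      _ = restr H b * (c * b) := mul_assoc _ _ _
      _ = restr H b := by rw [hcb, mul_one]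
  rw [h3]
  exact h2

/-- A left-invertible element supported in `H` is invertible. -/
theorem right_inv_of_supp (H : Subgroup G)
    (hH : ∀ x y : MonoidAlgebra K H, x * y = 1 → y * x = 1)
    (c b : MonoidAlgebra K G) (hc : ∀ g ∈ c.coeff.support, g ∈ H) (hbc : b * c = 1) :
    c * b = 1 := by
  have h1 : restr H b * c = 1 := by
    rw [← restr_mul_right H c b hc, hbc, restr_one]
  have h2 : c * restr H b = 1 := dedekind_of_supp H hH (restr H b) c (restr_supp H b) hc h1
  have h3 : b = restr H b := by
    calc b = b * 1 := (mul_one b).symm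
      _ = b * (c * restr H b) := by rw [h2]
      _ = (b * c) * restr H b := (mul_assoc _ _ _).symm
      _ = restr H b := by rw [hbc, one_mul]
  rw [h3]
  exact h2

/-- Main lemma: if `a * b = 1` and the support of `a` lies in a left coset `g H`, or the support
of `b` lies in a right coset `H g`, with `K[H]` directly finite, then `b * a = 1`. -/
theorem mul_eq_one_symm_of_coset (H : Subgroup G)
    (hH : ∀ x y : MonoidAlgebra K H, x * y = 1 → y * x = 1)
    (a b : MonoidAlgebra K G) (hab : a * b = 1)
    (hsupp : (∃ g : G, ∀ x ∈ a.coeff.support, g⁻¹ * x ∈ H) ∨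
      (∃ g : G, ∀ x ∈ b.coeff.support, x * g⁻¹ ∈ H)) :
    b * a = 1 := by
  rcases hsupp with ⟨g, hg⟩ | ⟨g, hg⟩
  · set u : MonoidAlgebra K G := MonoidAlgebra.single g 1 with hu
    set u' : MonoidAlgebra K G := MonoidAlgebra.single g⁻¹ 1 with hu'
    have huu' : u * u' = 1 := by
      rw [hu, hu', MonoidAlgebra.single_mul_single, mul_inv_cancel, mul_one]; rfl
    have hu'u : u' * u = 1 := by
      rw [hu, hu', MonoidAlgebra.single_mul_single, inv_mul_cancel, mul_one]; rfl
    set c := u' * a with hcdef
    have hc : ∀ x ∈ c.coeff.support, x ∈ H := by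
      intro x hx
      rw [Finsupp.mem_support_iff, hcdef, hu', MonoidAlgebra.coeff_single_mul_apply, one_mul,
        inv_inv] at hx
      have := hg (g * x) (Finsupp.mem_support_iff.mpr hx)
      simpa using this
    have h1 : c * (b * u) = 1 := by
      calc c * (b * u) = u' * (a * b) * u := by rw [hcdef]; noncomm_ring
        _ = 1 := by rw [hab, mul_one, hu'u]
    have h2 : (b * u) * c = 1 := left_inv_of_supp H hH c (b * u) hc h1
    calc b * a = b * (u * u') * a := by rw [huu', mul_one]
      _ = (b * u) * c := by rw [hcdef]; noncomm_ring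
      _ = 1 := h2
  · set u : MonoidAlgebra K G := MonoidAlgebra.single g 1 with hu
    set u' : MonoidAlgebra K G := MonoidAlgebra.single g⁻¹ 1 with hu'
    have huu' : u * u' = 1 := by
      rw [hu, hu', MonoidAlgebra.single_mul_single, mul_inv_cancel, mul_one]; rfl
    have hu'u : u' * u = 1 := by
      rw [hu, hu', MonoidAlgebra.single_mul_single, inv_mul_cancel, mul_one]; rfl
    set c := b * u' with hcdef
    have hc : ∀ x ∈ c.coeff.support, x ∈ H := by
      intro x hx
      rw [Finsupp.mem_support_iff, hcdef, hu', MonoidAlgebra.coeff_mul_single_apply, mul_one,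
        inv_inv] at hx
      have := hg (x * g) (Finsupp.mem_support_iff.mpr hx)
      simpa using this
    have h1 : (u * a) * c = 1 := by
      calc (u * a) * c = u * (a * b) * u' := by rw [hcdef]; noncomm_ring
        _ = 1 := by rw [hab, mul_one, huu']
    have h2 : c * (u * a) = 1 := right_inv_of_supp H hH c (u * a) hc h1
    calc b * a = b * (u' * u) * a := by rw [hu'u, mul_one]
      _ = c * (u * a) := by rw [hcdef]; noncomm_ring
      _ = 1 := h2

end Vale.Agent.Lib.P194
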